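import Vale.Agent.P165.LargeDegree.Main

/-!
P165: nonamenable quasi-transitive regular graphs of large degree have a nonuniqueness phase.
-/

namespace Vale.Agent.Results.P165.LargeDegreeNonuniqueness

open Vale.Agent.P165.LargeDegree

universe u

theorem result : ∀ κ : ℝ, 0 < κ → ∃ D₀ : ℕ, ∀ (V : Type u) (G : SimpleGraph V) [G.LocallyFinite],
    G.Connected → Infinite V → IsQuasiTransitive G → ∀ D : ℕ, D₀ ≤ D →
      (∀ x, G.degree x = D) → HasEdgeExpansion G (κ * D) → pc G < pu G :=
  fun _ hκ => exists_degree hκ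

end Vale.Agent.Results.P165.LargeDegreeNonuniqueness
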